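import Vale.Agent.P144Q.C.B8

/-!
Spinors with a source in the bulk: the boundary conditions and the residues of the limit.
-/

set_option linter.all false

namespace Vale.Agent.P144Q.C

open Finset Vale.Agent.P144 Filter Topology
open Vale.Agent.P144.H170 (Pt Mk HD gq F2 PZ PP_eqZ PZ_diff U3_of)
open Vale.Agent.P144.H365 (ResNN)
open Vale.Agent.P144.H135

variable {Ω : Dom} {ι κ : Type} [Fintype κ] {a : ι → ℝ} {N : ι → Finset Site} {r : κ → ι → Site}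
  {ζ : κ → ℂ} {c : ι → AL.Cn} {z' : ℂ} {δ : ℝ} {A B C E Hs Hf : ι → Pt → ℝ} {L : ι → ℝ}
  {l : Ultrafilter ι}

theorem bdc_of (hδ : 0 < δ) {q : ℂ → ℂ} {H : ℂ → ℝ} (hq : DifferentiableOn ℂ q (Ω.D \ {z'}))
    (hH : HL Ω (l : Filter ι) a L ζ z' δ Hs Hf q H) : Ω.Bd (F2 ζ w0 q) := by
  refine hH.bdc _ (fun z hz => ?_) hH.hd
  have h4 := Uh_sub hδ hz
  exact (((hq.differentiableAt ((Ω.op.sdiff isClosed_singleton).mem_nhds h4.1)).pow 2).div
    (H170.PP_diff z) (H170.PP_ne h4.2)).differentiableWithinAt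

theorem res_of (h : Pos Ω (l : Filter ι) a N r ζ c z' δ) {q : ℂ → ℂ} {H : ℂ → ℝ} (hq : DifferentiableOn ℂ q (Ω.D \ {z'}))
    (hH : HL Ω (l : Filter ι) a L ζ z' δ Hs Hf q H) (p : κ) : ResNN ζ w0 q (ζ p) := by
  classical
  have hδ := h.δ0
  obtain ⟨K, hK⟩ := hH.up
  have hζz : 48 * δ < ‖ζ p - z'‖ := h.far p
  -- a ball around the point
  have hWo : IsOpen (Ω.D \ Metric.closedBall z' (3 * δ)) := Ω.op.sdiff Metric.isClosed_closedBall
  have hpW : ζ p ∈ Ω.D \ Metric.closedBall z' (3 * δ) := ⟨h.dia p, fun h' => by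
    rw [Metric.mem_closedBall, dist_eq_norm] at h'; linarith⟩
  obtain ⟨R, hR, hRD, hRM⟩ := H170.exists_isolated (ζ := ζ) (ω := w0) hWo hpW
  have hin : ∀ z ∈ Metric.ball (ζ p) R, z ∈ Ω.D \ Metric.closedBall z' (3 * δ) := fun z hz =>
    hRD (by rw [Metric.mem_ball] at hz; rw [Metric.mem_closedBall]; linarith)
  have hout : ∀ z ∈ Metric.ball (ζ p) R, z ≠ ζ p → z ∉ Mk ζ w0 := by
    intro z hz hzp hzM
    have := hRM z hzM hzp
    rw [Metric.mem_ball, dist_eq_norm, norm_sub_rev] at hz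
    linarith
  have hU : ∀ z ∈ Metric.ball (ζ p) R, z ≠ ζ p → z ∈ Uh Ω.D ζ z' δ := by
    intro z hz hzp
    have h1 := hin z hz
    refine ⟨⟨h1.1, hout z hz hzp⟩, ?_⟩
    by_contra hc
    simp only [Set.mem_setOf_eq, not_or, not_lt] at hc
    refine h1.2 ?_
    rw [Metric.mem_closedBall, dist_eq_norm]
    have := Complex.norm_le_abs_re_add_abs_im (z - z')
    linarith [hc.1, hc.2]
  have hz1 : ∀ z ∈ Metric.ball (ζ p) R, z ∈ Ω.D \ {z'} := by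
    intro z hz
    have h1 := hin z hz
    refine ⟨h1.1, ?_⟩
    rintro (rfl : z = z')
    exact h1.2 (Metric.mem_closedBall_self (by positivity))
  have hPn : ∀ z ∈ Metric.ball (ζ p) R, PZ ζ w0 p z ≠ 0 := by
    intro z hz
    unfold PZ
    refine mul_ne_zero (Finset.prod_ne_zero_iff.2 fun p' hp' => sub_ne_zero.2 ?_)
      (Finset.prod_ne_zero_iff.2 fun p' _ => p'.elim)
    rintro rfl
    have hne : ζ p' ≠ ζ p := fun h' => (Finset.mem_erase.1 hp').1 (h.inj h')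
    exact hout _ hz hne (Or.inl ⟨p', rfl⟩)
  have key := U3_of (ζ := ζ) (ω := w0) (q := q) (h := H) (P := PZ ζ w0 p) (c := ζ p) hR
    (PP_eqZ p) (PZ_diff p) hPn (hq.mono fun z hz => hz1 z hz)
    (fun z hz hzp => hH.hd z (hU z hz hzp))
  have k2 := key.2.1 ⟨K, fun z hz hzp => hK z (hU z hz hzp)⟩
  refine ⟨_, k2, ?_⟩
  have e : ((((⟨-1 / 2, 1 / 2⟩ : ℂ) * (q (ζ p) ^ 2 / PZ ζ w0 p (ζ p))).re : ℝ) : ℂ) =
      (⟨-1 / 2, 1 / 2⟩ : ℂ) * (q (ζ p) ^ 2 / PZ ζ w0 p (ζ p)) := by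
    apply Complex.ext
    · rw [Complex.ofReal_re]
    · rw [Complex.ofReal_im, key.1]
  rw [e]
  have hpb := Metric.mem_ball_self (x := ζ p) hR
  have hqc : ContinuousAt q (ζ p) := (hq.differentiableAt
    ((Ω.op.sdiff isClosed_singleton).mem_nhds (hz1 _ hpb))).continuousAt
  have h1 : ContinuousAt (fun z => (⟨-1 / 2, 1 / 2⟩ : ℂ) * (q z ^ 2 / PZ ζ w0 p z)) (ζ p) :=
    continuousAt_const.mul ((hqc.pow 2).div (PZ_diff p (ζ p)).continuousAt (hPn _ hpb))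
  refine (h1.tendsto.mono_left nhdsWithin_le_nhds).congr' ?_
  filter_upwards [self_mem_nhdsWithin, nhdsWithin_le_nhds (Metric.ball_mem_nhds (ζ p) hR)]
    with z hz hzb
  have hz' : z - ζ p ≠ 0 := sub_ne_zero.2 hz
  have hP := hPn z hzb
  unfold gq
  rw [PP_eqZ p]
  field_simp

/-- Scaling of the boundary conditions. -/
theorem bdc_smul {q q' : ℂ → ℂ} {t : ℝ} (ht : ∀ z ∈ Ω.D, z ≠ z' → q' z = t * q z)
    (hz' : z' ∈ Ω.D) (hb : Ω.Bd (F2 ζ w0 q)) : Ω.Bd (F2 ζ w0 q') := by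
  refine Ω.smul _ _ (t ^ 2) {z'} (sq_nonneg t) (Set.finite_singleton _)
    (Set.singleton_subset_iff.2 hz') (fun z hz hne => ?_) hb
  unfold F2
  rw [ht z hz hne]
  push_cast
  ring

theorem bdc_zero : Ω.Bd (F2 ζ w0 fun _ => 0) := by
  have e : F2 ζ w0 (fun _ => 0) = fun _ => 0 := funext fun z => by unfold F2; simp
  rw [e]
  exact Ω.zero

/-- Scaling of the residues. -/
theorem res_smul {q q' : ℂ → ℂ} {t : ℝ} {m : ℂ} (hm : m ∈ Ω.D) (hmz : m ≠ z')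
    (ht : ∀ z ∈ Ω.D, z ≠ z' → q' z = t * q z) (hr : ResNN ζ w0 q m) : ResNN ζ w0 q' m := by
  obtain ⟨c0, hc0, hl⟩ := hr
  refine ⟨t ^ 2 * c0, by positivity, ?_⟩
  have h1 := hl.const_mul ((t ^ 2 : ℝ) : ℂ)
  rw [← Complex.ofReal_mul] at h1
  refine h1.congr' ?_
  filter_upwards [nhdsWithin_le_nhds ((Ω.op.sdiff (isClosed_singleton (x := z'))).mem_nhds
    ⟨hm, hmz⟩)] with z hz
  unfold gq
  rw [ht z hz.1 hz.2]
  push_cast
  ring

end Vale.Agent.P144Q.C
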