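import Vale.Agent.P144Q.C.B10

/-!
Spinors with a source in the bulk: the `H`-function vanishes if the spinor vanishes.
-/

set_option linter.all false

namespace Vale.Agent.P144Q.C

open Finset Vale.Agent.P144 Filter Topology
open Vale.Agent.P144.H170 (Mk Mk_closed HD)
open Vale.Agent.P144.H135

variable {Ω : Dom} {κ : Type} [Fintype κ] {ζ : κ → ℂ} {z' : ℂ} {δ : ℝ}

/-- There is a ray from a point of the region to the boundary of the domain. -/
theorem exists_ray {z : ℂ} (hz : z ∈ Uh Ω.D ζ z' δ) : ∃ v : ℂ, (1 ≤ |v.re| ∨ 1 ≤ |v.im|) ∧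
    ∀ t : ℝ, 0 ≤ t → z + t * v ∈ Ω.D → z + t * v ∈ Uh Ω.D ζ z' δ := by
  classical
  -- general form: `u` is one of the four directions
  have key : ∀ u : ℂ, u * (starRingEnd ℂ u) = 1 → (∀ w : ℂ, δ < (w * starRingEnd ℂ u).re →
      (δ < |w.re| ∨ δ < |w.im|)) → (∀ s : ℝ, 1 ≤ |(u * (1 + s * Complex.I)).re| ∨
      1 ≤ |(u * (1 + s * Complex.I)).im|) →
      δ < ((z - z') * starRingEnd ℂ u).re → ∃ v : ℂ, (1 ≤ |v.re| ∨ 1 ≤ |v.im|) ∧
      ∀ t : ℝ, 0 ≤ t → z + t * v ∈ Ω.D → z + t * v ∈ Uh Ω.D ζ z' δ := by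
    intro u hu h1 h2 h3
    obtain ⟨s, hs⟩ := (Set.finite_range fun p : κ => ((ζ p - z) * starRingEnd ℂ u).im /
      ((ζ p - z) * starRingEnd ℂ u).re).infinite_compl.nonempty
    refine ⟨u * (1 + s * Complex.I), h2 s, fun t ht hD => ⟨⟨hD, ?_⟩, ?_⟩⟩
    · rintro (⟨p, hp⟩ | ⟨p, -⟩)
      · have e1 : (ζ p - z) * starRingEnd ℂ u = t * (1 + s * Complex.I) := by
          have : ζ p - z = t * (u * (1 + s * Complex.I)) := by rw [hp]; ring
          rw [this]
          linear_combination (t * (1 + s * Complex.I)) * hu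
        have er : ((ζ p - z) * starRingEnd ℂ u).re = t := by rw [e1]; simp
        have ei : ((ζ p - z) * starRingEnd ℂ u).im = t * s := by rw [e1]; simp
        have ht0 : t ≠ 0 := by
          rintro rfl
          refine hz.1.2 (Or.inl ⟨p, ?_⟩)
          rw [hp]; simp
        refine hs ⟨p, ?_⟩
        simp only
        rw [er, ei]
        field_simp
      · exact p.elim
    · refine h1 _ ?_
      have e1 : (z + t * (u * (1 + s * Complex.I)) - z') * starRingEnd ℂ u =
          (z - z') * starRingEnd ℂ u + t * (1 + s * Complex.I) := by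
        linear_combination (t * (1 + s * Complex.I)) * hu
      rw [e1, Complex.add_re]
      have : ((t:ℂ) * (1 + s * Complex.I)).re = t := by simp
      rw [this]; linarith
  rcases hz.2 with h | h
  · rcases lt_abs.1 h with h | h
    · refine key 1 (by simp) (fun w hw => ?_) (fun s => ?_) (by simpa using h)
      · left
        have : w.re ≤ |w.re| := le_abs_self _
        have hw' : δ < w.re := by simpa using hw
        linarith
      · left; simp
    · refine key (-1) (by simp) (fun w hw => ?_) (fun s => ?_) (by simpa using h)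
      · left
        have : -w.re ≤ |w.re| := neg_le_abs _
        have hw' : δ < -w.re := by simpa using hw
        linarith
      · left; simp
  · rcases lt_abs.1 h with h | h
    · refine key Complex.I (by simp) (fun w hw => ?_) (fun s => ?_) (by simpa using h)
      · right
        have : w.im ≤ |w.im| := le_abs_self _
        have hw' : δ < w.im := by simpa using hw
        linarith
      · right; simp
    · refine key (-Complex.I) (by simp) (fun w hw => ?_) (fun s => ?_) (by simpa using h)
      · right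
        have : -w.im ≤ |w.im| := neg_le_abs _
        have hw' : δ < -w.im := by simpa using hw
        linarith
      · right; simp

/-- If the gradient vanishes then the function vanishes. -/
theorem zero_of_grad {H : ℂ → ℝ} {G : ℂ → ℂ} (hd : ∀ z ∈ Uh Ω.D ζ z' δ, HD H G z)
    (hG : ∀ z ∈ Uh Ω.D ζ z' δ, G z = 0) (bd : Van Ω.D H) : ∀ z ∈ Uh Ω.D ζ z' δ, H z = 0 := by
  intro z hz
  obtain ⟨v, hv, hray⟩ := exists_ray hz
  set f : ℝ → ℂ := fun t => z + t * v with hf
  have hfc : Continuous f := by
    simp only [hf]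
    fun_prop
  have hf3 : f 3 ∉ Ω.D := fun h3 => by
    have h1 := Ω.norm_lt h3
    have h2 := Ω.norm_lt hz.1.1
    have h4 : ‖f 3 - z‖ = 3 * ‖v‖ := by simp [hf]
    have h5 := norm_sub_le (f 3) z
    have h6 := Complex.abs_re_le_norm v
    have h7 := Complex.abs_im_le_norm v
    rcases hv with hv | hv <;> linarith
  set S : Set ℝ := Set.Icc 0 3 ∩ f ⁻¹' Ω.Dᶜ with hS
  have hSc : IsCompact S := isCompact_Icc.inter_right (Ω.op.isClosed_compl.preimage hfc)
  have hSn : S.Nonempty := ⟨3, ⟨by norm_num, le_rfl⟩, hf3⟩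
  set T := sInf S with hT
  have hTS : T ∈ S := hSc.sInf_mem hSn
  have hT0 : 0 < T := by
    rcases hTS.1.1.eq_or_lt with h | h
    · refine absurd ?_ hTS.2
      rw [← h]
      simpa [hf] using hz.1.1
    · exact h
  have hlt : ∀ t, 0 ≤ t → t < T → f t ∈ Ω.D := by
    intro t h0 h1
    by_contra hc
    have : t ∈ S := ⟨⟨h0, h1.le.trans hTS.1.2⟩, hc⟩
    have := csInf_le hSc.bddBelow this
    linarith
  have hU : ∀ t : ℝ, 0 ≤ t → t < T → z + t * v ∈ Uh Ω.D ζ z' δ := fun t h0 h1 =>
    hray t h0 (hlt t h0 h1)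
  have hconst : ∀ t : ℝ, 0 ≤ t → t < T → H (z + t * v) = H z := by
    intro t h0 h1
    have hder : ∀ s ∈ Set.Icc 0 t, HasDerivAt (fun s : ℝ => H (z + s * v)) 0 s := by
      intro s hs
      have hsU := hU s hs.1 (hs.2.trans_lt h1)
      have hγ : HasDerivAt (fun s : ℝ => z + (s : ℂ) * v) v s := by
        have := ((Complex.ofRealCLM.hasDerivAt (x := s)).mul_const v).const_add z
        simpa using this
      have := HD.comp (γ := fun s : ℝ => z + (s : ℂ) * v) (hd _ hsU) hγ
      rwa [hG _ hsU, zero_mul, Complex.zero_re] at this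
    have := constant_of_has_deriv_right_zero (f := fun s : ℝ => H (z + s * v)) (a := 0) (b := t)
      (fun s hs => (hder s hs).continuousAt.continuousWithinAt)
      (fun s hs => (hder s ⟨hs.1, hs.2.le⟩).hasDerivWithinAt) t ⟨h0, le_rfl⟩
    simpa using this
  have hfT : Tendsto f (𝓝[<] T) (𝓝 (f T)) := (hfc.tendsto T).mono_left nhdsWithin_le_nhds
  refine abs_nonpos_iff.1 (le_of_forall_pos_le_add fun ε hε => ?_)
  obtain ⟨η, hη, hbd⟩ := bd ε hε
  obtain ⟨t, k1, k2, k3⟩ := (((Metric.tendsto_nhds.1 hfT) η hη).and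
    ((show ∀ᶠ t in 𝓝[<] T, t < T from self_mem_nhdsWithin).and
      (nhdsWithin_le_nhds (lt_mem_nhds hT0)))).exists
  have k4 := hbd (f t) (hlt t k3.le k2)
    ((Metric.infDist_le_dist_of_mem (y := f T) hTS.2).trans_lt k1)
  rw [zero_add, ← hconst t k3.le k2]
  exact k4

/-- Points of the closed region are limits of points of the region. -/
theorem near_Uh {z : ℂ} (h1 : z ∈ Ω.D) (h2 : z ∉ Mk ζ w0)
    (h3 : δ ≤ |(z - z').re| ∨ δ ≤ |(z - z').im|) {ρ : ℝ} (hρ : 0 < ρ) :
    ∃ w ∈ Uh Ω.D ζ z' δ, ‖w - z‖ < ρ := by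
  obtain ⟨R, hR, hRs⟩ := Metric.mem_nhds_iff.1 ((Ω.op.sdiff (Mk_closed ζ w0)).mem_nhds ⟨h1, h2⟩)
  set s := min (R / 2) (ρ / 2) with hs
  have hs0 : 0 < s := by positivity
  have hsR : s < R := (min_le_left _ _).trans_lt (by linarith)
  have hsρ : s < ρ := (min_le_right _ _).trans_lt (by linarith)
  have hin : ∀ e : ℂ, ‖e‖ = s → z + e ∈ Ω.D \ Mk ζ w0 := fun e he => hRs (by
    rw [Metric.mem_ball, dist_eq_norm, add_sub_cancel_left, he]; exact hsR)
  rcases h3 with h3 | h3
  · rcases le_total 0 (z - z').re with h0 | h0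
    · refine ⟨z + (s : ℂ), ⟨hin _ (by rw [Complex.norm_real, Real.norm_eq_abs, abs_of_pos hs0]), ?_⟩,
        by rw [add_sub_cancel_left, Complex.norm_real, Real.norm_eq_abs, abs_of_pos hs0]; exact hsρ⟩
      left
      have e : (z + (s:ℂ) - z').re = (z - z').re + s := by
        simp only [Complex.sub_re, Complex.add_re, Complex.ofReal_re]; ring
      rw [e, abs_of_nonneg (by linarith)]
      rw [abs_of_nonneg h0] at h3
      linarith
    · refine ⟨z + ((-s : ℝ) : ℂ), ⟨hin _ (by rw [Complex.norm_real, Real.norm_eq_abs, abs_neg,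
        abs_of_pos hs0]), ?_⟩, by
          rw [add_sub_cancel_left, Complex.norm_real, Real.norm_eq_abs, abs_neg, abs_of_pos hs0]
          exact hsρ⟩
      left
      have e : (z + ((-s : ℝ):ℂ) - z').re = (z - z').re - s := by
        simp only [Complex.sub_re, Complex.add_re, Complex.ofReal_re]; ring
      rw [e, abs_of_nonpos (by linarith)]
      rw [abs_of_nonpos h0] at h3
      linarith
  · rcases le_total 0 (z - z').im with h0 | h0
    · refine ⟨z + (s : ℂ) * Complex.I, ⟨hin _ (by rw [norm_mul, Complex.norm_I, mul_one,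
        Complex.norm_real, Real.norm_eq_abs, abs_of_pos hs0]), ?_⟩,
        by rw [add_sub_cancel_left, norm_mul, Complex.norm_I, mul_one, Complex.norm_real,
          Real.norm_eq_abs, abs_of_pos hs0]; exact hsρ⟩
      right
      have e : (z + (s:ℂ) * Complex.I - z').im = (z - z').im + s := by
        simp only [Complex.sub_im, Complex.add_im, Complex.im_ofReal_mul, Complex.I_im]; ring
      rw [e, abs_of_nonneg (by linarith)]
      rw [abs_of_nonneg h0] at h3
      linarith
    · refine ⟨z + ((-s : ℝ) : ℂ) * Complex.I, ⟨hin _ (by rw [norm_mul, Complex.norm_I, mul_one,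
        Complex.norm_real, Real.norm_eq_abs, abs_neg, abs_of_pos hs0]), ?_⟩, by
          rw [add_sub_cancel_left, norm_mul, Complex.norm_I, mul_one, Complex.norm_real,
            Real.norm_eq_abs, abs_neg, abs_of_pos hs0]
          exact hsρ⟩
      right
      have e : (z + ((-s : ℝ):ℂ) * Complex.I - z').im = (z - z').im - s := by
        simp only [Complex.sub_im, Complex.add_im, Complex.im_ofReal_mul, Complex.I_im]; ring
      rw [e, abs_of_nonpos (by linarith)]
      rw [abs_of_nonpos h0] at h3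
      linarith

end Vale.Agent.P144Q.C
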