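import Vale.Agent.P144Q.C.B12

/-!
Spinors with a source in the bulk: existence and uniqueness of the limit.
-/

set_option linter.all false

namespace Vale.Agent.P144Q.C

open Finset Vale.Agent.P144 Filter Topology
open Vale.Agent.P144.H170 (Pt pt nf apos_nf ev_nf_of Mk SLim RS RS_ne VS phA phB phC phE F2)
open Vale.Agent.P144.H365 (ResNN)
open Vale.Agent.P144.H135

/-- The limit of the fields with a source. -/
structure BLim (Ω : Dom) {ι κ : Type} [Fintype κ] (l : Filter ι) (a : ι → ℝ) (r : κ → ι → Site)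
    (ζ : κ → ℂ) (c : ι → AL.Cn) (z' : ℂ) (δ : ℝ) (A B C E : ι → Pt → ℝ) (S : κ → Prop)
    (QA QB QC QE : Pt → ℝ) (κ0 : ℂ) (q y : ℂ → ℂ) : Prop where
  qd : DifferentiableOn ℂ q (Ω.D \ {z'})
  yd : DifferentiableOn ℂ y (Metric.ball z' (24 * δ))
  qy : ∀ z ∈ Metric.ball z' (24 * δ), z ≠ z' → q z = RS S F0 ζ w0 z * (κ0 / (z - z') + y z)
  bd : Ω.Bd (F2 ζ w0 q)
  rs : ∀ p, ResNN ζ w0 q (ζ p)
  slim : SLim l a ((Ω.D \ {z'}) \ Mk ζ w0) r v0
    (fun k x => (a k)⁻¹ * (sg0 S (fun p => r p k) (c k) * eA (c k) (A k) x))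
    (fun k x => (a k)⁻¹ * (sg0 S (fun p => r p k) (c k) * eB (c k) (B k) x))
    (fun k x => (a k)⁻¹ * (sg0 S (fun p => r p k) (c k) * eC (c k) (C k) x))
    (fun k x => (a k)⁻¹ * (sg0 S (fun p => r p k) (c k) * eE (c k) (E k) x)) q
  A : ∀ z ∈ Metric.ball z' (24 * δ),
    Tendsto (fun kx : ι × Pt => (a kx.1)⁻¹ * (sg0 S (fun p => r p kx.1) (c kx.1) *
      (gr S (fun p => r p kx.1) ((kx.2.1:ℝ) + 1 / 4) * eA (c kx.1) (A kx.1) kx.2) -
      QA (kx.2 - (c kx.1).2))) (nf l a z) (𝓝 (phA (y z)))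
  B : ∀ z ∈ Metric.ball z' (24 * δ),
    Tendsto (fun kx : ι × Pt => (a kx.1)⁻¹ * (sg0 S (fun p => r p kx.1) (c kx.1) *
      (gr S (fun p => r p kx.1) ((kx.2.1:ℝ) + 3 / 4) * eB (c kx.1) (B kx.1) kx.2) -
      QB (kx.2 - (c kx.1).2))) (nf l a z) (𝓝 (phB (y z)))
  C : ∀ z ∈ Metric.ball z' (24 * δ),
    Tendsto (fun kx : ι × Pt => (a kx.1)⁻¹ * (sg0 S (fun p => r p kx.1) (c kx.1) *
      (gr S (fun p => r p kx.1) ((kx.2.1:ℝ) + 1 / 4) * eC (c kx.1) (C kx.1) kx.2) -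
      QC (kx.2 - (c kx.1).2))) (nf l a z) (𝓝 (phC (y z)))
  E : ∀ z ∈ Metric.ball z' (24 * δ),
    Tendsto (fun kx : ι × Pt => (a kx.1)⁻¹ * (sg0 S (fun p => r p kx.1) (c kx.1) *
      (gr S (fun p => r p kx.1) ((kx.2.1:ℝ) + 3 / 4) * eE (c kx.1) (E kx.1) kx.2) -
      QE (kx.2 - (c kx.1).2))) (nf l a z) (𝓝 (phE (y z)))

section

variable {Ω : Dom} {ι κ : Type} [Fintype κ] {a : ι → ℝ} {N : ι → Finset Site} {r : κ → ι → Site}
  {ζ : κ → ℂ} {c : ι → AL.Cn} {z' : ℂ} {δ : ℝ} {A B C E Hs Hf : ι → Pt → ℝ}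
  {l : Ultrafilter ι} (h : Pos Ω (l : Filter ι) a N r ζ c z' δ)
  (hB : ∀ᶠ k in (l : Filter ι), BD (N k) (fun p => r p k) (c k) (A k) (B k) (C k) (E k) (Hs k)
    (Hf k))

include h hB

/-- **The limit exists along ultrafilters.** -/
theorem blim_exists {u0 : Site} {QA QB QC QE : Pt → ℝ} {κ0 : ℂ} (K : PKr u0 QA QB QC QE κ0)
    (hu : ∀ᶠ k in (l : Filter ι), (c k).1 = (c k).2 + u0) {S : κ → Prop}
    (hS : Metric.closedBall z' (24 * δ) ⊆ VS S F0 ζ w0) :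
    ∃ q y, BLim Ω (l : Filter ι) a r ζ c z' δ A B C E S QA QB QC QE κ0 q y := by
  have hδ := h.δ0
  obtain ⟨Λ, hΛ, hL⟩ := apriori h hB K hu
  set L : ι → ℝ := fun k => Λ * a k with hLdef
  have hL0 : ∀ᶠ k in (l : Filter ι), 0 < L k := by
    filter_upwards [h.apos] with k hk
    simp only [hLdef]
    positivity
  set t := √Λ with ht
  have ht0 : 0 < t := Real.sqrt_pos.2 hΛ
  have hsc : ∀ᶠ k in (l : Filter ι), sc a L k = t * a k := by
    filter_upwards [h.apos] with k hk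
    unfold sc
    simp only [hLdef]
    rw [show a k * (Λ * a k) = Λ * (a k * a k) by ring, Real.sqrt_mul hΛ.le,
      Real.sqrt_mul_self hk.le]
  have hτ : Tendsto (fun k => a k / sc a L k) l (𝓝 (1 / t)) := by
    refine tendsto_const_nhds.congr' ?_
    filter_upwards [hsc, h.apos] with k k1 k2
    rw [k1]; field_simp
  obtain ⟨σ, q, y, F⟩ := flim h hB hL0 hL K hu hS hτ
  obtain ⟨H, hH⟩ := hl_exists h hB hL0 hL F.slim
  have hbd := bdc_of h.δ0 F.qd hH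
  have hrs := res_of h F.qd hH
  have e1 : ∀ z ∈ Ω.D, z ≠ z' → (fun z => ((t * σ : ℝ) : ℂ) * q z) z = ((t * σ : ℝ) : ℂ) * q z :=
    fun _ _ _ => rfl
  have hX : ∀ (X : ι → Pt → ℝ), ∀ᶠ k in (l : Filter ι), ∀ x,
      (a k)⁻¹ * (sg0 S (fun p => r p k) (c k) * X k x) = (t * σ) * ((sc a L k)⁻¹ * X k x) := by
    intro X
    filter_upwards [hsc, h.apos, F.σe] with k k1 k2 k3 x
    rw [k1, k3]
    field_simp
  have hY : ∀ (G X Q : ι × Pt → ℝ) {z : ℂ} {w : ℂ} {φ : ℂ →L[ℝ] ℝ},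
      Tendsto (fun kx : ι × Pt => (sc a L kx.1)⁻¹ * (sg0 S (fun p => r p kx.1) (c kx.1) *
        (G kx * X kx) - Q kx)) (nf (l : Filter ι) a z) (𝓝 (φ w)) →
      Tendsto (fun kx : ι × Pt => (a kx.1)⁻¹ * (sg0 S (fun p => r p kx.1) (c kx.1) *
        (G kx * X kx) - Q kx)) (nf (l : Filter ι) a z) (𝓝 (φ ((t : ℂ) * w))) := by
    intro G X Q z w φ hl
    have h1 := hl.const_mul t
    rw [← smul_eq_mul, ← map_smul, Complex.real_smul] at h1
    refine h1.congr' ?_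
    filter_upwards [ev_nf_of (l := (l : Filter ι)) (a := a) (z := z) hsc, apos_nf h.a0 z]
      with kx k1 k2
    rw [k1]
    field_simp
  refine ⟨fun z => ((t * σ : ℝ) : ℂ) * q z, fun z => (t : ℂ) * y z, ⟨F.qd.const_mul _,
    F.yd.const_mul _, fun z hz hzz => ?_, bdc_smul e1 h.zD hbd, fun p => ?_, ⟨?_, ?_, ?_, ?_⟩,
    fun z hz => hY _ _ _ (F.ylim.A z hz), fun z hz => hY _ _ _ (F.ylim.B z hz),
    fun z hz => hY _ _ _ (F.ylim.C z hz), fun z hz => hY _ _ _ (F.ylim.E z hz)⟩⟩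
  · rw [F.qy z hz hzz]
    have h1 : (σ : ℂ) * σ = 1 := by rw [← Complex.ofReal_mul, F.σ2]; simp
    have h2 : (t : ℂ) ≠ 0 := by exact_mod_cast ht0.ne'
    have h3 : z - z' ≠ 0 := sub_ne_zero.2 hzz
    push_cast
    have e2 : (t : ℂ) * (1 / (t : ℂ) * κ0 / (z - z') + y z) = κ0 / (z - z') + t * y z := by
      field_simp
    rw [← e2]
    linear_combination (t * (RS S F0 ζ w0 z * (1 / (t : ℂ) * κ0 / (z - z') + y z))) * h1
  · refine res_smul (t := t * σ) (h.dia p) ?_ e1 (hrs p)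
    intro h'
    have h1 := h.far p
    rw [h', sub_self, norm_zero] at h1
    linarith
  · exact xlim_smul (t * σ) F.slim.A (hX fun k x => eA (c k) (A k) x) fun z _ => rfl
  · exact xlim_smul (t * σ) F.slim.B (hX fun k x => eB (c k) (B k) x) fun z _ => rfl
  · exact xlim_smul (t * σ) F.slim.C (hX fun k x => eC (c k) (C k) x) fun z _ => rfl
  · exact xlim_smul (t * σ) F.slim.E (hX fun k x => eE (c k) (E k) x) fun z _ => rfl

end

/-- **Uniqueness of the limit.** -/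
theorem blim_unique {Ω : Dom} {ι ι' κ : Type} [Fintype κ] {ζ : κ → ℂ} {z' : ℂ} {δ : ℝ}
    {l : Filter ι} {a : ι → ℝ} {N : ι → Finset Site} {r : κ → ι → Site} {c : ι → AL.Cn}
    {A B C E : ι → Pt → ℝ} (h : Pos Ω l a N r ζ c z' δ)
    {l' : Filter ι'} {a' : ι' → ℝ} {r' : κ → ι' → Site} {c' : ι' → AL.Cn}
    {A' B' C' E' : ι' → Pt → ℝ} {S : κ → Prop} (hS : Metric.closedBall z' (24 * δ) ⊆ VS S F0 ζ w0)
    {QA QB QC QE QA' QB' QC' QE' : Pt → ℝ} {κ0 : ℂ} {q y q' y' : ℂ → ℂ}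
    (h1 : BLim Ω l a r ζ c z' δ A B C E S QA QB QC QE κ0 q y)
    (h2 : BLim Ω l' a' r' ζ c' z' δ A' B' C' E' S QA' QB' QC' QE' κ0 q' y') :
    (∀ z ∈ Ω.D, z ≠ z' → q z = q' z) ∧ ∀ z ∈ Metric.ball z' (24 * δ), y z = y' z := by
  have hδ := h.δ0
  obtain ⟨Q, hQ, he, hz⟩ := ext_zero (q := fun z => q z - q' z) (y := fun z => y z - y' z) h hS
    (h1.qd.sub h2.qd) (h1.yd.sub h2.yd) (fun z hz hzz => by
      rw [h1.qy z hz hzz, h2.qy z hz hzz]; ring)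
  have hinj : Function.Injective (Sum.elim ζ w0) := by
    rintro (x | x) (y | y) hxy
    · exact congrArg Sum.inl (h.inj hxy)
    · exact y.elim
    · exact x.elim
    · exact x.elim
  have hζz : ∀ p, ζ p ≠ z' := by
    intro p h'
    have h1 := h.far p
    rw [h', sub_self, norm_zero] at h1
    linarith
  have hz0 := Ω.uni _ _ ζ w0 Q q q' {z'}
    h.dia (fun p => p.elim) hinj (Set.finite_singleton _)
    (Set.singleton_subset_iff.2 h.zD) (fun z hz => by rw [Set.mem_singleton_iff.1 hz]; exact h.zM)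
    hQ he
    (fun p => (h1.qd.differentiableAt ((Ω.op.sdiff isClosed_singleton).mem_nhds
      ⟨h.dia p, hζz p⟩)).continuousAt)
    (fun p => (h2.qd.differentiableAt ((Ω.op.sdiff isClosed_singleton).mem_nhds
      ⟨h.dia p, hζz p⟩)).continuousAt) h1.bd h2.bd h1.rs h2.rs (fun p => p.elim)
  have g1 : ∀ z ∈ Ω.D, z ≠ z' → q z = q' z := fun z hz hzz => by
    have := he z hz hzz
    rw [hz0 z hz] at this
    exact sub_eq_zero.1 this.symm
  refine ⟨g1, fun z hzb => ?_⟩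
  have hne := RS_ne (hS (Metric.ball_subset_closedBall hzb))
  by_cases hzz : z = z'
  · subst hzz
    rw [hz0 z h.zD] at hz
    exact sub_eq_zero.1 ((mul_eq_zero.1 hz.symm).resolve_left hne)
  · have hD : z ∈ Ω.D := h.ball z (by
      rw [Metric.mem_ball, dist_eq_norm] at hzb; exact hzb.le)
    have g2 := g1 z hD hzz
    rw [h1.qy z hzb hzz, h2.qy z hzb hzz] at g2
    have g3 := mul_left_cancel₀ hne g2
    exact add_left_cancel g3

end Vale.Agent.P144Q.C
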