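import Vale.Agent.P144Q.C.B13

/-!
The kernel of the fermions with a source in the bulk.
-/

set_option linter.all false

namespace Vale.Agent.P144Q.C

open Finset Vale.Agent.P144 Filter Topology
open Vale.Agent.P144.H170 (Pt pt tauF rM tauR_rM RS VS Mk)
open Vale.Agent.P144.H135

section

variable {κ : Type} [Fintype κ] (N : Finset Site) (r : κ → Site) (c' : AL.Cn)

/-- The fields of the kernel. -/
noncomputable def bA : Site → ℝ :=
  AL.xA N (c'.2 ::ₘ rM r) {c'.1} (AL.QQ N (rM r) 0)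
noncomputable def bB : Site → ℝ :=
  AL.xB N (c'.2 ::ₘ rM r) {c'.1} (AL.QQ N (rM r) 0)
noncomputable def bC : Site → ℝ :=
  AL.xC N (c'.2 ::ₘ rM r) {c'.1} (AL.QQ N (rM r) 0)
noncomputable def bE : Site → ℝ :=
  AL.xD N (c'.2 ::ₘ rM r) {c'.1} (AL.QQ N (rM r) 0)

/-- The spinor data of the kernel. -/
theorem exists_BD (hc : c'.1 ∈ AL.cnr c'.2) (hN : c'.1 ∈ N) (hK : P144G.KC N) :
    ∃ Hs Hf, BD N r c' (bA N r c') (bB N r c') (bC N r c') (bE N r c') Hs Hf := by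
  have h := AL.spr_QQ (Λ := N) (c'.2 ::ₘ rM r) (A := {c'.1})
    (by simpa using hN) (AL.QQ N (rM r) 0)
  obtain ⟨Hs, Hf, hH⟩ := P144G.exists_H h hK
  have e1 : AL.tauR (c'.2 ::ₘ rM r) = fun x => AL.cut1 c'.2 (x.1, x.2 + 1) * tauF r x := by
    funext x
    unfold AL.tauR
    rw [AL.cutS_cons, ← tauR_rM]
    rfl
  have e2 : AL.theA {c'.1} = fun x => chi (AL.sw x.1 x.2) c'.1 := by
    funext x
    unfold AL.theA AL.chiM
    simp
  rw [e1, e2] at h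
  refine ⟨Hs, Hf, hc, h, hH, fun he => ?_, fun he => ?_, fun he => ?_, fun he => ?_⟩
  · have h1 : c'.1 = c'.2 := by rw [← he]
    unfold bA AL.xA
    rw [if_pos (by rw [← h1]; exact hN), h1]
    exact src_one _ _ _
  · have h1 : c'.1 = (c'.2.1 + 1, c'.2.2) := by rw [← he]
    unfold bB AL.xB
    rw [if_pos (by rw [← h1]; exact hN), h1]
    exact src_one _ _ _
  · have h1 : c'.1 = (c'.2.1, c'.2.2 + 1) := by rw [← he]
    unfold bC AL.xC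
    rw [if_pos (by rw [← h1]; exact hN), h1]
    exact src_one _ _ _
  · have h1 : c'.1 = (c'.2.1 + 1, c'.2.2 + 1) := by rw [← he]
    unfold bE AL.xD
    rw [if_pos (by rw [← h1]; exact hN), h1]
    exact src_one _ _ _

theorem eA_Wf {x : Site} (hx : x ∈ N) :
    eA c' (bA N r c') x = AL.Wf N (rM r) [(x, x), c'] := by
  rw [Wf_two]
  unfold eA bA AL.xA
  rw [if_pos hx]

theorem eB_Wf {x : Site} (hx : ((x.1 + 1, x.2) : Site) ∈ N) :
    eB c' (bB N r c') x = AL.Wf N (rM r) [((x.1 + 1, x.2), x), c'] := by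
  rw [Wf_two]
  unfold eB bB AL.xB
  rw [if_pos hx]

theorem eC_Wf {x : Site} (hx : ((x.1, x.2 + 1) : Site) ∈ N) :
    eC c' (bC N r c') x = AL.Wf N (rM r) [((x.1, x.2 + 1), x), c'] := by
  rw [Wf_two]
  unfold eC bC AL.xC
  rw [if_pos hx]

end

section geo

variable {Ω : Dom} {κ : Type} [Fintype κ] {Λ : ℝ → Finset Site}

/-- The positions. -/
structure Geo (Ω : Dom) (ζ : κ → ℂ) (z' : ℂ) (δ : ℝ) : Prop where
  inj : Function.Injective ζ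
  dia : ∀ p, ζ p ∈ Ω.D
  δ0 : 0 < δ
  ball : ∀ w, ‖w - z'‖ ≤ 24 * δ → w ∈ Ω.D
  far : ∀ p, 48 * δ < ‖ζ p - z'‖

theorem exists_geo {ζ : κ → ℂ} (hinj : Function.Injective ζ) (hζ : ∀ p, ζ p ∈ Ω.D) {z' : ℂ}
    (hz' : z' ∈ Ω.D) (hne : ∀ p, ζ p ≠ z') : ∃ δ, Geo Ω ζ z' δ := by
  obtain ⟨R, hR, hRs⟩ := Metric.mem_nhds_iff.1 (Ω.op.mem_nhds hz')
  obtain ⟨e, he, he'⟩ := H170.exists_pos_le (ε := fun p => ‖ζ p - z'‖) fun p =>
    norm_pos_iff.2 (sub_ne_zero.2 (hne p))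
  refine ⟨min (R / 48) (e / 96), hinj, hζ, by positivity, fun w hw => hRs ?_, fun p => ?_⟩
  · rw [Metric.mem_ball, dist_eq_norm]
    have := min_le_left (R / 48) (e / 96)
    linarith
  · have h1 := min_le_right (R / 48) (e / 96)
    have h2 := he' p
    linarith

variable {ζ : κ → ℂ} {z' : ℂ} {δ : ℝ} (G : Geo Ω ζ z' δ) (hL : Fam0 Ω.D Λ)

include G hL

theorem Geo.pos {U : Filter ℝ} (hU : U ≤ 𝓝[>] 0) (u0 : Site) :
    Pos Ω U (fun a => a) Λ (rz ζ) ζ (cz z' u0) z' δ where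
  a0 := hU
  hN := hL.mono hU
  hr := fun p => (AL.flt (ζ p)).mono_left hU
  hg := (AL.flt z').mono_left hU
  inj := G.inj
  dia := G.dia
  δ0 := G.δ0
  ball := G.ball
  far := G.far

theorem Geo.blim {U : Ultrafilter ℝ} (hU : (U : Filter ℝ) ≤ 𝓝[>] 0) {u0 : Site}
    (hu0 : u0 ∈ AL.cnr 0) {QA QB QC QE : Pt → ℝ} {κ0 : ℂ} (K : PKr u0 QA QB QC QE κ0)
    {S : κ → Prop} (hS : Metric.closedBall z' (24 * δ) ⊆ VS S F0 ζ w0) :
    ∃ q y, BLim Ω (U : Filter ℝ) (fun a => a) (rz ζ) ζ (cz z' u0) z' δ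
      (fun a => bA (Λ a) (fun p => rz ζ p a) (cz z' u0 a))
      (fun a => bB (Λ a) (fun p => rz ζ p a) (cz z' u0 a))
      (fun a => bC (Λ a) (fun p => rz ζ p a) (cz z' u0 a))
      (fun a => bE (Λ a) (fun p => rz ζ p a) (cz z' u0 a)) S QA QB QC QE κ0 q y := by
  have hP := G.pos hL hU u0
  have hmem : ∀ᶠ a in (U : Filter ℝ), (cz z' u0 a).1 ∈ Λ a ∧ P144G.KC (Λ a) := by
    filter_upwards [hP.hN.deep hP.a0 hP.zD hP.hg 1, hP.hN.kc] with a ha hk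
    refine ⟨ha _ ?_ ?_, hk⟩ <;>
      rcases AL.mem_cnr.1 (cz_cnr hu0 z' a) with h6 | h6 | h6 | h6 <;> rw [h6] <;> simp
  have hex : ∀ a, ∃ Hs Hf : Site → ℝ, (cz z' u0 a).1 ∈ Λ a ∧ P144G.KC (Λ a) →
      BD (Λ a) (fun p => rz ζ p a) (cz z' u0 a)
      (bA (Λ a) (fun p => rz ζ p a) (cz z' u0 a)) (bB (Λ a) (fun p => rz ζ p a) (cz z' u0 a))
      (bC (Λ a) (fun p => rz ζ p a) (cz z' u0 a)) (bE (Λ a) (fun p => rz ζ p a) (cz z' u0 a))
      Hs Hf := by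
    intro a
    by_cases h : (cz z' u0 a).1 ∈ Λ a ∧ P144G.KC (Λ a)
    · obtain ⟨Hs, Hf, hB⟩ := exists_BD (Λ a) (fun p => rz ζ p a) (cz z' u0 a)
        (cz_cnr hu0 z' a) h.1 h.2
      exact ⟨Hs, Hf, fun _ => hB⟩
    · exact ⟨0, 0, fun h' => absurd h' h⟩
  choose Hs Hf hB using hex
  exact blim_exists hP (hmem.mono fun a ha => hB a ha) K
    (Eventually.of_forall fun a => rfl) hS

end geo

end Vale.Agent.P144Q.C
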